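import Vale.Agent.P066.Theta.H235.WallRatio
import Vale.Agent.P066.Theta.H863.RayRatio

/-!
# U4: wall positivity implies strong positivity
-/

set_option autoImplicit false

namespace Vale.Agent.P066.Theta

variable {r : ℕ} {B : Matrix (Fin r) (Fin r) ℤ}

/-- If all wall functions of `g` are of positive type, then the theta functions of `g` are strongly
positive. -/
theorem strongPositivity_of_wallPos (hB : B.transpose = -B) {g : QSeries B} (h0 : g 0 = 1)
    (hW : WallPos g) : StrongPositivity g := by
  intro s s' F F' hF hF' γ R hR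
  exact mem_posSemiring.1 (H235.strongPositivity_of_wallRatio hB zpow_mem_posSemiring h0
    (fun D Q b hb hQ gp g0 gm hT t ht R hR e he => ratio_mem_of_wallPos hB zpow_mem_posSemiring hW
      D Q b hb hQ gp g0 gm hT t ht.le R hR e he) s s' F F' hF hF' γ R hR)

/-- The expansions of the theta functions in all charts have coefficients in `ℕ[v, v⁻¹]`. -/
theorem pos_conj_of_wallPos (hB : B.transpose = -B) {g : QSeries B} (h0 : g 0 = 1)
    (hW : WallPos g) {s : Fin r → ℤ} {F : QSeries B} (hF : IsTheta g s F) (γ : Fin r →₀ ℕ)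
    (Q : Fin r → ℤ) : Pos ((Ring.inverse (twist s (posPart g Q)) * F * posPart g Q : QSeries B) γ) :=
  mem_posSemiring.1 (H235.conj_theta_mem hB zpow_mem_posSemiring h0
    (fun D Q b hb hQ gp g0 gm hT t ht R hR e he => ratio_mem_of_wallPos hB zpow_mem_posSemiring hW
      D Q b hb hQ gp g0 gm hT t ht.le R hR e he) hF γ Q)

end Vale.Agent.P066.Theta
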