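import Vale.Agent.P066.Theta.H235.Trunc

/-!
# Generic integer linear forms and the path `Q + t L`, `t → ∞`

`Gen L Q D`: `Q` vanishes on no nonzero exponent of degree at most `D`, and the path `Q + t L`
meets the walls of degree at most `D` one at a time.
-/

set_option autoImplicit false

open Finset

namespace Vale.Agent.P066.Theta.H235

variable {r : ℕ}

/-- A positive integer vector off finitely many hyperplanes. -/
theorem exists_pos_vector (U : Finset (Fin r → ℤ)) :
    ∃ w : Fin r → ℤ, (∀ i, 0 < w i) ∧ ∀ u ∈ U, (∑ i, u i * w i = 0) → u = 0 := by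
  classical
  let P : (Fin r → ℤ) → Polynomial ℤ := fun u => ∑ i, Polynomial.C (u i) * Polynomial.X ^ (i : ℕ)
  have hP : ∀ u, u ≠ 0 → P u ≠ 0 := by
    intro u hu h
    apply hu
    funext i
    have h1 := congrArg (fun p => Polynomial.coeff p (i : ℕ)) h
    simp only [P, Polynomial.finsetSum_coeff, Polynomial.coeff_C_mul_X_pow,
      Polynomial.coeff_zero] at h1
    rw [sum_eq_single i] at h1
    · simpa using h1
    · intro j _ hj
      rw [if_neg]
      intro h2
      exact hj (Fin.ext h2.symm)
    · intro h2
      exact absurd (mem_univ i) h2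
  have hprod : ∏ u ∈ U.filter (fun u => u ≠ 0), P u ≠ 0 := by
    rw [prod_ne_zero_iff]
    intro u hu
    exact hP u (mem_filter.1 hu).2
  obtain ⟨x, hx0, hx⟩ : ∃ x : ℤ, 0 < x ∧
      ¬ Polynomial.IsRoot (∏ u ∈ U.filter (fun u => u ≠ 0), P u) x := by
    by_contra hc
    push Not at hc
    apply hprod
    apply Polynomial.eq_zero_of_infinite_isRoot
    exact (Set.Ioi_infinite (0 : ℤ)).mono fun x hx => hc x hx
  refine ⟨fun i => x ^ (i : ℕ), fun i => pow_pos hx0 _, fun u hu h => ?_⟩
  by_contra hne
  apply hx
  rw [Polynomial.IsRoot.def, Polynomial.eval_prod]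
  apply prod_eq_zero (mem_filter.2 ⟨hu, hne⟩)
  simp only [P, Polynomial.eval_finsetSum, Polynomial.eval_mul, Polynomial.eval_C,
    Polynomial.eval_pow, Polynomial.eval_X]
  exact h

/-- `Q` is generic up to degree `D` with respect to the path `Q + t L`. -/
structure Gen (L Q : Fin r → ℤ) (D : ℕ) : Prop where
  ne_zero : ∀ e : Fin r →₀ ℕ, e ≠ 0 → deg e ≤ D → wt Q e ≠ 0
  prop : ∀ e e' : Fin r →₀ ℕ, deg e ≤ D → deg e' ≤ D → wt Q e * wt L e' = wt Q e' * wt L e →
    ∀ i, wt L e' * (e i : ℤ) = wt L e * (e' i : ℤ)

theorem wt_pos_of_pos {w : Fin r → ℤ} (hw : ∀ i, 0 < w i) {e : Fin r →₀ ℕ} (he : e ≠ 0) :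
    0 < wt w e := by
  obtain ⟨i, hi⟩ := Finsupp.ne_iff.1 he
  have h1 : 0 < (e i : ℤ) := by
    have : 0 < e i := Nat.pos_of_ne_zero (by simpa using hi)
    exact_mod_cast this
  exact sum_pos' (fun j _ => mul_nonneg (by positivity) (hw j).le)
    ⟨i, mem_univ i, mul_pos h1 (hw i)⟩

theorem exists_gen (L Q : Fin r → ℤ) (D : ℕ) :
    ∃ Q' : Fin r → ℤ, Gen L Q' D ∧ ∀ e : Fin r →₀ ℕ, deg e ≤ D → (0 < wt Q' e ↔ 0 < wt Q e) := by
  classical
  obtain ⟨w, hw, hU⟩ := exists_pos_vector (r := r) ((box r D ×ˢ box r D).image
    (fun p => fun i => wt L p.2 * (p.1 i : ℤ) - wt L p.1 * (p.2 i : ℤ)))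
  -- a large integer
  obtain ⟨N, hN⟩ : ∃ N : ℤ, ∀ e ∈ box r D, ∀ e' ∈ box r D,
      wt w e < N ∧ |wt w e * wt L e' - wt w e' * wt L e| < N := by
    refine ⟨1 + ∑ e ∈ box r D, |wt w e| +
      ∑ e ∈ box r D, ∑ e' ∈ box r D, |wt w e * wt L e' - wt w e' * wt L e|, ?_⟩
    intro e he e' he'
    have h1 : |wt w e| ≤ ∑ e ∈ box r D, |wt w e| :=
      single_le_sum (f := fun e => |wt w e|) (fun _ _ => abs_nonneg _) he
    have h2 : |wt w e * wt L e' - wt w e' * wt L e| ≤
        ∑ e' ∈ box r D, |wt w e * wt L e' - wt w e' * wt L e| :=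
      single_le_sum (f := fun e' => |wt w e * wt L e' - wt w e' * wt L e|)
        (fun _ _ => abs_nonneg _) he'
    have h3 : ∑ e' ∈ box r D, |wt w e * wt L e' - wt w e' * wt L e| ≤
        ∑ e ∈ box r D, ∑ e' ∈ box r D, |wt w e * wt L e' - wt w e' * wt L e| :=
      single_le_sum (f := fun e => ∑ e' ∈ box r D, |wt w e * wt L e' - wt w e' * wt L e|)
        (fun _ _ => sum_nonneg fun _ _ => abs_nonneg _) he
    have h4 := le_abs_self (wt w e)
    have h5 := abs_nonneg (wt w e)
    have h6 := abs_nonneg (wt w e * wt L e' - wt w e' * wt L e)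
    constructor
    · linarith
    · linarith
  have hwt : ∀ e, wt (N • Q - w) e = N * wt Q e - wt w e := by
    intro e
    rw [sub_eq_add_neg, wt_add_left, wt_smul_left, wt_neg_left, ← sub_eq_add_neg]
  have hN0 : ∀ e ∈ box r D, wt w e < N := fun e he => (hN e he e he).1
  refine ⟨N • Q - w, ⟨?_, ?_⟩, ?_⟩
  · intro e he hD
    rw [hwt]
    have h1 := wt_pos_of_pos hw he
    have h2 := hN0 e (mem_box.2 hD)
    rcases lt_or_ge 0 (wt Q e) with h | h
    · have : N ≤ N * wt Q e := le_mul_of_one_le_right (by linarith) h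
      linarith
    · have : N * wt Q e ≤ 0 := mul_nonpos_of_nonneg_of_nonpos (by linarith) h
      linarith
  · intro e e' he he' h
    have hd := (hN e (mem_box.2 he) e' (mem_box.2 he')).2
    rw [hwt, hwt] at h
    have h1 : N * (wt Q e * wt L e' - wt Q e' * wt L e) = wt w e * wt L e' - wt w e' * wt L e := by
      linear_combination h
    have h2 : wt Q e * wt L e' - wt Q e' * wt L e = 0 := by
      by_contra hne
      rw [← h1, abs_mul] at hd
      have h3 : 1 ≤ |wt Q e * wt L e' - wt Q e' * wt L e| := Int.one_le_abs hne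
      have h4 : 0 ≤ |N| := abs_nonneg N
      have h5 : |N| ≤ |N| * |wt Q e * wt L e' - wt Q e' * wt L e| := le_mul_of_one_le_right h4 h3
      have h6 := le_abs_self N
      linarith
    rw [h2, mul_zero] at h1
    have h7 := hU (fun i => wt L e' * (e i : ℤ) - wt L e * (e' i : ℤ))
      (mem_image.2 ⟨(e, e'), mem_product.2 ⟨mem_box.2 he, mem_box.2 he'⟩, rfl⟩) (by
        have h8 : ∑ i, (wt L e' * (e i : ℤ) - wt L e * (e' i : ℤ)) * w i =
            wt L e' * wt w e - wt L e * wt w e' := by
          have hwe : ∀ e : Fin r →₀ ℕ, wt w e = ∑ i, (e i : ℤ) * w i := fun _ => rfl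
          rw [hwe e, hwe e', mul_sum, mul_sum]
          rw [← sum_sub_distrib]
          exact sum_congr rfl fun i _ => by ring
        rw [h8]
        linear_combination -h1)
    intro i
    have h9 := congrFun h7 i
    simp only [Pi.zero_apply] at h9
    linarith
  · intro e hD
    by_cases he : e = 0
    · subst he
      simp
    rw [hwt]
    have h1 := wt_pos_of_pos hw he
    have h2 := hN0 e (mem_box.2 hD)
    constructor
    · intro h
      by_contra hc
      rw [not_lt] at hc
      have : N * wt Q e ≤ 0 := mul_nonpos_of_nonneg_of_nonpos (by linarith) hc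
      linarith
    · intro h
      have : N ≤ N * wt Q e := le_mul_of_one_le_right (by linarith) h
      linarith

/-- The exponents of degree at most `D` on which the sign has to change. -/
noncomputable def crossings (L Q : Fin r → ℤ) (D : ℕ) : Finset (Fin r →₀ ℕ) :=
  (box r D).filter fun e => wt Q e * wt L e < 0

theorem mem_crossings {L Q : Fin r → ℤ} {D : ℕ} {e : Fin r →₀ ℕ} :
    e ∈ crossings L Q D ↔ deg e ≤ D ∧ wt Q e * wt L e < 0 := by
  simp [crossings]

/-- If all exponents of a set stable under subtraction are pairwise proportional, they are the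
multiples of one. -/
theorem exists_primitive {L Q : Fin r → ℤ} {D : ℕ} {e₀ : Fin r →₀ ℕ} (he₀ : e₀ ≠ 0)
    (hd₀ : deg e₀ ≤ D) (hQ₀ : wt Q e₀ = 0)
    (hL : ∀ e : Fin r →₀ ℕ, e ≠ 0 → deg e ≤ D → wt Q e = 0 → wt L e ≠ 0)
    (hprop : ∀ e e' : Fin r →₀ ℕ, deg e ≤ D → deg e' ≤ D → wt Q e = 0 → wt Q e' = 0 →
      ∀ i, wt L e' * (e i : ℤ) = wt L e * (e' i : ℤ)) :
    ∃ b : Fin r →₀ ℕ, b ≠ 0 ∧ deg b ≤ D ∧ wt Q b = 0 ∧
      ∀ e : Fin r →₀ ℕ, deg e ≤ D → wt Q e = 0 → ∃ n : ℕ, e = n • b := by
  classical
  let Z := (box r D).filter fun e => e ≠ 0 ∧ wt Q e = 0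
  have hZ : e₀ ∈ Z := by simp [Z, hd₀, he₀, hQ₀]
  obtain ⟨b, hb, hmin⟩ := exists_min_image Z (fun e => deg e) ⟨e₀, hZ⟩
  simp only [Z, mem_filter, mem_box] at hb
  obtain ⟨hbD, hb0, hbQ⟩ := hb
  refine ⟨b, hb0, hbD, hbQ, ?_⟩
  -- Euclid
  intro e
  induction hn : deg e using Nat.strong_induction_on generalizing e with
  | h n ih =>
    intro heD heQ
    by_cases he : e = 0
    · exact ⟨0, by simp [he]⟩
    have hbe : b ≤ e := by
      have h1 : deg b ≤ deg e := by
        apply hmin
        simp [Z, he, heQ]
        omega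
      have h2 := hprop e b (by omega) hbD heQ hbQ
      have hLb := hL b hb0 hbD hbQ
      have hLe := hL e he (by omega) heQ
      have h3 : wt L b * (deg e : ℤ) = wt L e * (deg b : ℤ) := by
        simp only [deg, Nat.cast_sum, mul_sum]
        exact sum_congr rfl fun i _ => h2 i
      intro i
      have h4 : 0 < deg b := Nat.pos_of_ne_zero fun h => hb0 (deg_eq_zero h)
      have h5 : (deg b : ℤ) * (e i : ℤ) = (deg e : ℤ) * (b i : ℤ) := by
        apply mul_left_cancel₀ hLb
        have := h2 i
        linear_combination (deg b : ℤ) * this - (b i : ℤ) * h3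
      have h6 : (deg b : ℤ) * (b i : ℤ) ≤ (deg b : ℤ) * (e i : ℤ) := by
        rw [h5]
        exact mul_le_mul_of_nonneg_right (by exact_mod_cast h1) (by positivity)
      have h7 : (b i : ℤ) ≤ (e i : ℤ) := le_of_mul_le_mul_left h6 (by exact_mod_cast h4)
      exact_mod_cast h7
    obtain ⟨c, hc⟩ := exists_add_of_le hbe
    have h4 : 0 < deg b := Nat.pos_of_ne_zero fun h => hb0 (deg_eq_zero h)
    have hdc : deg e = deg b + deg c := by rw [hc, deg_add]
    have hQc : wt Q c = 0 := by
      rw [hc, wt_add, hbQ, zero_add] at heQ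
      exact heQ
    obtain ⟨m, hm⟩ := ih (deg c) (by omega) c rfl (by omega) hQc
    exact ⟨m + 1, by rw [hc, hm, add_smul, one_smul, add_comm]⟩

/-- One step of the path `Q + t L`. -/
theorem exists_step {L Q : Fin r → ℤ} {D : ℕ} (hG : Gen L Q D) (hne : (crossings L Q D).Nonempty) :
    ∃ (Q₀ Q' : Fin r → ℤ) (b : Fin r →₀ ℕ), b ≠ 0 ∧ IsWallAt Q₀ D b ∧ Gen L Q' D ∧
      (crossings L Q' D).card < (crossings L Q D).card ∧
      ((0 < wt L b ∧ (∀ e : Fin r →₀ ℕ, deg e ≤ D → (0 < wt Q e ↔ 0 < wt Q₀ e)) ∧
          (∀ e : Fin r →₀ ℕ, e ≠ 0 → deg e ≤ D → (0 < wt Q' e ↔ 0 ≤ wt Q₀ e))) ∨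
        (wt L b < 0 ∧ (∀ e : Fin r →₀ ℕ, e ≠ 0 → deg e ≤ D → (0 < wt Q e ↔ 0 ≤ wt Q₀ e)) ∧
          (∀ e : Fin r →₀ ℕ, deg e ≤ D → (0 < wt Q' e ↔ 0 < wt Q₀ e)))) := by
  classical
  -- the first crossing
  obtain ⟨e₀, he₀, hmin⟩ := exists_min_image (crossings L Q D)
    (fun e => (|wt Q e| : ℚ) / |wt L e|) hne
  obtain ⟨hd₀, hc₀⟩ := mem_crossings.1 he₀
  have hL₀ : wt L e₀ ≠ 0 := fun h => by rw [h, mul_zero] at hc₀; exact lt_irrefl _ hc₀
  have hQ₀ : wt Q e₀ ≠ 0 := fun h => by rw [h, zero_mul] at hc₀; exact lt_irrefl _ hc₀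
  have ha : 0 < |wt L e₀| := abs_pos.2 hL₀
  have hq : 0 < |wt Q e₀| := abs_pos.2 hQ₀
  have hmin' : ∀ e, deg e ≤ D → wt Q e * wt L e < 0 →
      |wt Q e₀| * |wt L e| ≤ |wt Q e| * |wt L e₀| := by
    intro e h1 h2
    have h3 := hmin e (mem_crossings.2 ⟨h1, h2⟩)
    have hLe : wt L e ≠ 0 := fun h => by rw [h, mul_zero] at h2; exact lt_irrefl _ h2
    have ha' : 0 < |wt L e| := abs_pos.2 hLe
    rw [div_le_div_iff₀ (by exact_mod_cast ha) (by exact_mod_cast ha')] at h3
    exact_mod_cast h3
  let Q₀ : Fin r → ℤ := |wt L e₀| • Q + |wt Q e₀| • L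
  have hw₀ : ∀ e, wt Q₀ e = |wt L e₀| * wt Q e + |wt Q e₀| * wt L e := by
    intro e
    simp only [Q₀]
    rw [wt_add_left, wt_smul_left, wt_smul_left]
  have hz₀ : wt Q₀ e₀ = 0 := by
    rw [hw₀]
    rcases lt_or_gt_of_ne hL₀ with h | h
    · have h' : 0 < wt Q e₀ := by
        by_contra hc
        rw [not_lt] at hc
        have := mul_nonneg_of_nonpos_of_nonpos hc h.le
        linarith
      rw [abs_of_neg h, abs_of_pos h']
      ring
    · have h' : wt Q e₀ < 0 := by
        by_contra hc
        rw [not_lt] at hc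
        have := mul_nonneg hc h.le
        linarith
      rw [abs_of_pos h, abs_of_neg h']
      ring
  -- signs before the wall
  have hsame : ∀ e, deg e ≤ D → (0 < wt Q₀ e → 0 < wt Q e) ∧ (wt Q₀ e < 0 → wt Q e < 0) := by
    intro e he
    rw [hw₀]
    rcases lt_trichotomy (wt Q e * wt L e) 0 with h | h | h
    · have h1 := hmin' e he h
      rcases lt_or_ge 0 (wt Q e) with h2 | h2
      · have h3 : wt L e < 0 := by
          by_contra hc
          rw [not_lt] at hc
          have := mul_nonneg h2.le hc
          linarith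
        rw [abs_of_pos h2, abs_of_neg h3] at h1
        constructor
        · intro _
          exact h2
        · intro h4
          nlinarith
      · have h2' : wt Q e < 0 := lt_of_le_of_ne h2 fun h5 => by
          rw [h5, zero_mul] at h
          exact lt_irrefl _ h
        have h3 : 0 < wt L e := by
          by_contra hc
          rw [not_lt] at hc
          have := mul_nonneg_of_nonpos_of_nonpos h2 hc
          linarith
        rw [abs_of_neg h2', abs_of_pos h3] at h1
        constructor
        · intro h4
          nlinarith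
        · intro _
          exact h2'
    · rcases mul_eq_zero.1 h with h1 | h1
      · have h2 : e = 0 := by
          by_contra h2
          exact hG.ne_zero e h2 he h1
        subst h2
        simp
      · rw [h1, mul_zero, add_zero]
        constructor
        · intro h2
          by_contra hc
          rw [not_lt] at hc
          have := mul_nonpos_of_nonneg_of_nonpos ha.le hc
          linarith
        · intro h2
          by_contra hc
          rw [not_lt] at hc
          have := mul_nonneg ha.le hc
          linarith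
    · rcases lt_or_ge 0 (wt Q e) with h2 | h2
      · have h3 : 0 < wt L e := by
          by_contra hc
          rw [not_lt] at hc
          have := mul_nonpos_of_nonneg_of_nonpos h2.le hc
          linarith
        refine ⟨fun _ => h2, fun h4 => ?_⟩
        have := mul_pos ha h2
        have := mul_pos hq h3
        linarith
      · have h2' : wt Q e < 0 := lt_of_le_of_ne h2 fun h5 => by
          rw [h5, zero_mul] at h
          exact lt_irrefl _ h
        have h3 : wt L e < 0 := by
          by_contra hc
          rw [not_lt] at hc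
          have := mul_nonpos_of_nonpos_of_nonneg h2 hc
          linarith
        refine ⟨fun h4 => ?_, fun _ => h2'⟩
        have := mul_neg_of_pos_of_neg ha h2'
        have := mul_neg_of_pos_of_neg hq h3
        linarith
  -- the exponents on the wall
  have hwall : ∀ e, e ≠ 0 → deg e ≤ D → wt Q₀ e = 0 → wt L e ≠ 0 ∧ wt Q e * wt L e < 0 := by
    intro e he hd h
    rw [hw₀] at h
    have h1 := hG.ne_zero e he hd
    have h2 : wt L e ≠ 0 := by
      intro h2
      rw [h2, mul_zero, add_zero] at h
      rcases mul_eq_zero.1 h with h3 | h3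
      · exact ha.ne' h3
      · exact h1 h3
    refine ⟨h2, ?_⟩
    have h3 : |wt L e₀| * (wt Q e * wt L e) = - (|wt Q e₀| * (wt L e * wt L e)) := by
      linear_combination (wt L e) * h
    have h4 : 0 < wt L e * wt L e := mul_self_pos.2 h2
    have h5 : 0 < |wt Q e₀| * (wt L e * wt L e) := mul_pos hq h4
    by_contra hc
    rw [not_lt] at hc
    have := mul_nonneg ha.le hc
    linarith
  obtain ⟨b, hb0, hbD, hbQ, hball⟩ := exists_primitive (L := L) (Q := Q₀) (D := D) (e₀ := e₀)
    (by
      rintro rfl
      simp at hL₀) hd₀ hz₀ (fun e he hd h => (hwall e he hd h).1) (by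
      intro e e' he he' h h'
      apply hG.prop e e' he he'
      rw [hw₀] at h h'
      apply mul_left_cancel₀ ha.ne'
      linear_combination (wt L e') * h - (wt L e) * h')
  obtain ⟨hLb, -⟩ := hwall b hb0 hbD hbQ
  -- all exponents on the wall have the sign of `b`
  have hsgn : ∀ e, e ≠ 0 → deg e ≤ D → wt Q₀ e = 0 → 0 < wt L e * wt L b := by
    intro e he hd h
    obtain ⟨n, rfl⟩ := hball e hd h
    rw [wt_nsmul]
    have hn : 0 < (n : ℤ) := by
      have : n ≠ 0 := by
        rintro rfl
        simp at he
      exact_mod_cast Nat.pos_of_ne_zero this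
    have := mul_pos hn (mul_self_pos.2 hLb)
    linarith [mul_assoc (n : ℤ) (wt L b) (wt L b)]
  -- after the wall
  obtain ⟨M, hM⟩ : ∃ M : ℤ, ∀ e ∈ box r D, |wt L e| < M := by
    refine ⟨1 + ∑ e ∈ box r D, |wt L e|, fun e he => ?_⟩
    have := single_le_sum (f := fun e => |wt L e|) (fun _ _ => abs_nonneg _) he
    linarith
  have hM0 : 0 < M := lt_of_le_of_lt (abs_nonneg _) (hM e₀ (mem_box.2 hd₀))
  let Q' : Fin r → ℤ := M • Q₀ + L
  have hw' : ∀ e, wt Q' e = M * wt Q₀ e + wt L e := by
    intro e
    simp only [Q']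
    rw [wt_add_left, wt_smul_left]
  have hpos' : ∀ e, deg e ≤ D → 0 < wt Q₀ e → 0 < wt Q' e := by
    intro e he h
    rw [hw']
    have h1 := hM e (mem_box.2 he)
    have h2 : M ≤ M * wt Q₀ e := le_mul_of_one_le_right hM0.le h
    have h3 := neg_abs_le (wt L e)
    linarith
  have hneg' : ∀ e, deg e ≤ D → wt Q₀ e < 0 → wt Q' e < 0 := by
    intro e he h
    rw [hw']
    have h1 := hM e (mem_box.2 he)
    have h2 : M ≤ M * (-wt Q₀ e) := le_mul_of_one_le_right hM0.le (by linarith)
    have h3 := le_abs_self (wt L e)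
    linarith
  have hzero' : ∀ e, wt Q₀ e = 0 → wt Q' e = wt L e := by
    intro e h
    rw [hw', h, mul_zero, zero_add]
  have hG' : Gen L Q' D := by
    constructor
    · intro e he hd
      rcases lt_trichotomy (wt Q₀ e) 0 with h | h | h
      · exact (hneg' e hd h).ne
      · rw [hzero' e h]
        exact (hwall e he hd h).1
      · exact (hpos' e hd h).ne'
    · intro e e' he he' h
      apply hG.prop e e' he he'
      rw [hw', hw', hw₀, hw₀] at h
      apply mul_left_cancel₀ (mul_pos hM0 ha).ne'
      linear_combination h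
  refine ⟨Q₀, Q', b, hb0, ⟨hbQ, fun b' _ h1 h2 => hball b' h1 h2⟩, hG', ?_, ?_⟩
  · apply card_lt_card
    rw [Finset.ssubset_iff_of_subset]
    · refine ⟨e₀, he₀, ?_⟩
      rw [mem_crossings, hzero' e₀ hz₀]
      rintro ⟨-, h⟩
      have := mul_self_pos.2 hL₀
      linarith
    · intro e he
      rw [mem_crossings] at he ⊢
      obtain ⟨hd, h⟩ := he
      refine ⟨hd, ?_⟩
      rcases lt_trichotomy (wt Q₀ e) 0 with h1 | h1 | h1
      · have h2 := hneg' e hd h1
        have h3 := (hsame e hd).2 h1
        have h4 : 0 < wt L e := by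
          by_contra hc
          rw [not_lt] at hc
          have := mul_nonneg_of_nonpos_of_nonpos h2.le hc
          linarith
        exact mul_neg_of_neg_of_pos h3 h4
      · rw [hzero' e h1] at h
        have := mul_self_nonneg (wt L e)
        linarith
      · have h2 := hpos' e hd h1
        have h3 := (hsame e hd).1 h1
        have h4 : wt L e < 0 := by
          by_contra hc
          rw [not_lt] at hc
          have := mul_nonneg h2.le hc
          linarith
        exact mul_neg_of_pos_of_neg h3 h4
  · rcases lt_or_gt_of_ne hLb with h | h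
    · right
      refine ⟨h, ?_, ?_⟩
      · intro e he hd
        constructor
        · intro h1
          by_contra hc
          rw [not_le] at hc
          have := (hsame e hd).2 hc
          linarith
        · intro h1
          rcases h1.lt_or_eq with h2 | h2
          · exact (hsame e hd).1 h2
          · have h3 := (hwall e he hd h2.symm).2
            have h4 := hsgn e he hd h2.symm
            have h5 : wt L e < 0 := by
              by_contra hc
              rw [not_lt] at hc
              have := mul_nonpos_of_nonneg_of_nonpos hc h.le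
              linarith
            by_contra hc
            rw [not_lt] at hc
            have := mul_nonneg_of_nonpos_of_nonpos hc h5.le
            linarith
      · intro e hd
        constructor
        · intro h1
          by_contra hc
          rw [not_lt] at hc
          rcases hc.lt_or_eq with h2 | h2
          · have := hneg' e hd h2
            linarith
          · by_cases he : e = 0
            · subst he
              simp at h1
            have h4 := hsgn e he hd h2
            rw [hzero' e h2] at h1
            have := mul_nonpos_of_nonneg_of_nonpos h1.le h.le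
            linarith
        · exact hpos' e hd
    · left
      refine ⟨h, ?_, ?_⟩
      · intro e hd
        constructor
        · intro h1
          by_contra hc
          rw [not_lt] at hc
          rcases hc.lt_or_eq with h2 | h2
          · have := (hsame e hd).2 h2
            linarith
          · by_cases he : e = 0
            · subst he
              simp at h1
            have h3 := (hwall e he hd h2).2
            have h4 := hsgn e he hd h2
            have h5 : 0 < wt L e := by
              by_contra hc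
              rw [not_lt] at hc
              have := mul_nonpos_of_nonpos_of_nonneg hc h.le
              linarith
            have := mul_nonneg h1.le h5.le
            linarith
        · exact (hsame e hd).1
      · intro e he hd
        constructor
        · intro h1
          by_contra hc
          rw [not_le] at hc
          have := hneg' e hd hc
          linarith
        · intro h1
          rcases h1.lt_or_eq with h2 | h2
          · exact hpos' e hd h2
          · have h4 := hsgn e he hd h2.symm
            rw [hzero' e h2.symm]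
            by_contra hc
            rw [not_lt] at hc
            have := mul_nonpos_of_nonpos_of_nonneg hc h.le
            linarith

end Vale.Agent.P066.Theta.H235
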