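import Vale.Agent.P066.Theta.H615.Fact
import Vale.Agent.P066.Theta.Uncond

/-!
# Truncation by degree, the trace identity, and chart expansions

`EqTo D f g`: the series agree up to degree `D`.  `conj s P F = (twist s P)⁻¹ F P` is the expansion
of `x^p F` in the chart reached by `P` (`s i = ω(y_i, p)`).
-/

set_option autoImplicit false

open Finset

namespace Vale.Agent.P066.Theta.H235

noncomputable section

variable {r : ℕ} {B : Matrix (Fin r) (Fin r) ℤ}

open QSeries

/-! ### degrees and weights -/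

theorem deg_add (a b : Fin r →₀ ℕ) : deg (a + b) = deg a + deg b := by
  simp [deg, sum_add_distrib]

@[simp] theorem deg_zero : deg (0 : Fin r →₀ ℕ) = 0 := by simp [deg]

theorem deg_mono {a b : Fin r →₀ ℕ} (h : a ≤ b) : deg a ≤ deg b :=
  sum_le_sum fun i _ => h i

theorem deg_eq_zero {a : Fin r →₀ ℕ} (h : deg a = 0) : a = 0 := by
  ext i
  have := (sum_eq_zero_iff.1 h) i (mem_univ i)
  simpa using this

theorem finite_box (D : ℕ) : {e : Fin r →₀ ℕ | deg e ≤ D}.Finite := by
  apply (Set.finite_Iic (Finsupp.equivFunOnFinite.symm (fun _ : Fin r => D))).subset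
  intro e he
  rw [Set.mem_Iic]
  intro i
  have h1 : e i ≤ deg e := single_le_sum (f := fun i => e i) (fun _ _ => Nat.zero_le _) (mem_univ i)
  simpa using h1.trans he

/-- The exponents of degree at most `D`. -/
def box (r D : ℕ) : Finset (Fin r →₀ ℕ) := (finite_box (r := r) D).toFinset

@[simp] theorem mem_box {D : ℕ} {e : Fin r →₀ ℕ} : e ∈ box r D ↔ deg e ≤ D := by
  simp [box]

theorem wt_neg_left (Q : Fin r → ℤ) (a : Fin r →₀ ℕ) : wt (-Q) a = - wt Q a := by
  simp [wt]

theorem wt_smul_left (n : ℤ) (Q : Fin r → ℤ) (a : Fin r →₀ ℕ) : wt (n • Q) a = n * wt Q a := by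
  simp only [wt, Pi.smul_apply, smul_eq_mul, mul_sum]
  exact sum_congr rfl fun i _ => by ring

theorem wt_nsmul (Q : Fin r → ℤ) (n : ℕ) (a : Fin r →₀ ℕ) : wt Q (n • a) = n * wt Q a := by
  simp only [wt, Finsupp.smul_apply, smul_eq_mul, mul_sum]
  exact sum_congr rfl fun i _ => by push_cast; ring

theorem chartAt_eq (s : Fin r → ℤ) (γ : Fin r →₀ ℕ) : chartAt B s γ = s + chartAt B 0 γ := by
  funext i
  simp [chartAt]

theorem wt_chartAt_zero (γ a : Fin r →₀ ℕ) : wt (chartAt B 0 γ) a = omega B (toZ a) (toZ γ) := by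
  simp only [wt, chartAt, omega, toZ, Pi.zero_apply, zero_add, mul_sum]
  exact sum_congr rfl fun i _ => sum_congr rfl fun j _ => by ring

theorem wt_chartAt (s : Fin r → ℤ) (γ a : Fin r →₀ ℕ) :
    wt (chartAt B s γ) a = wt s a + omega B (toZ a) (toZ γ) := by
  rw [chartAt_eq, wt_add_left, wt_chartAt_zero]

/-! ### equality up to a degree -/

/-- Equality up to degree `D`. -/
def EqTo (D : ℕ) (f g : QSeries B) : Prop := ∀ e, deg e ≤ D → f e = g e

theorem EqTo.refl (D : ℕ) (f : QSeries B) : EqTo D f f := fun _ _ => rfl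

theorem EqTo.symm {D : ℕ} {f g : QSeries B} (h : EqTo D f g) : EqTo D g f :=
  fun e he => (h e he).symm

theorem EqTo.trans {D : ℕ} {f g k : QSeries B} (h : EqTo D f g) (h' : EqTo D g k) : EqTo D f k :=
  fun e he => (h e he).trans (h' e he)

theorem deg_le_of_antidiagonal {D : ℕ} {e : Fin r →₀ ℕ} (he : deg e ≤ D)
    {p : (Fin r →₀ ℕ) × (Fin r →₀ ℕ)} (hp : p ∈ antidiagonal e) : deg p.1 ≤ D ∧ deg p.2 ≤ D := by
  rw [HasAntidiagonal.mem_antidiagonal] at hp
  have := deg_add p.1 p.2
  rw [hp] at this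
  omega

theorem EqTo.mul {D : ℕ} {f g f' g' : QSeries B} (h : EqTo D f g) (h' : EqTo D f' g') :
    EqTo D (f * f') (g * g') := by
  intro e he
  rw [mul_apply, mul_apply]
  refine sum_congr rfl fun p hp => ?_
  have := deg_le_of_antidiagonal he hp
  rw [h p.1 this.1, h' p.2 this.2]

theorem EqTo.twist {D : ℕ} {f g : QSeries B} (s : Fin r → ℤ) (h : EqTo D f g) :
    EqTo D (twist s f) (twist s g) := by
  intro e he
  rw [twist_apply, twist_apply, h e he]

theorem EqTo.inverse {D : ℕ} {f g : QSeries B} (hf : f 0 = 1) (hg : g 0 = 1) (h : EqTo D f g) :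
    EqTo D (Ring.inverse f) (Ring.inverse g) := by
  have h1 : EqTo D (Ring.inverse f * f * Ring.inverse g) (Ring.inverse f * g * Ring.inverse g) :=
    ((EqTo.refl D _).mul h).mul (EqTo.refl D _)
  rw [Ring.inverse_mul_cancel f (isUnit_of_one hf), one_mul, mul_assoc,
    Ring.mul_inverse_cancel g (isUnit_of_one hg), mul_one] at h1
  exact h1.symm

/-! ### the expansion in a chart -/

/-- `(twist s P)⁻¹ F P`. -/
def conj (s : Fin r → ℤ) (P F : QSeries B) : QSeries B := Ring.inverse (twist s P) * F * P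

theorem twist_isUnit (s : Fin r → ℤ) {P : QSeries B} (hP : P 0 = 1) : IsUnit (twist s P) :=
  isUnit_of_one (by simpa using hP)

theorem twist_mul_conj (s : Fin r → ℤ) {P : QSeries B} (hP : P 0 = 1) (F : QSeries B) :
    twist s P * conj s P F = F * P := by
  unfold conj
  rw [← mul_assoc, ← mul_assoc, Ring.mul_inverse_cancel _ (twist_isUnit s hP), one_mul]

theorem eq_conj {s : Fin r → ℤ} {P F R : QSeries B} (hP : P 0 = 1)
    (h : twist s P * R = F * P) : R = conj s P F := by
  have h1 : Ring.inverse (twist s P) * (twist s P * R) = Ring.inverse (twist s P) * (F * P) := by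
    rw [h]
  rw [← mul_assoc, Ring.inverse_mul_cancel _ (twist_isUnit s hP), one_mul] at h1
  rw [h1, conj, mul_assoc]

theorem mul_apply_zero_one {P P' : QSeries B} (hP : P 0 = 1) (hP' : P' 0 = 1) :
    (P * P') 0 = 1 := by
  rw [mul_zero_apply, hP, hP', one_mul]

theorem conj_mul (s : Fin r → ℤ) {P P' : QSeries B} (hP : P 0 = 1) (hP' : P' 0 = 1)
    (F : QSeries B) : conj s (P * P') F = conj s P' (conj s P F) := by
  symm
  apply eq_conj (mul_apply_zero_one hP hP')
  rw [twist_mul, mul_assoc, twist_mul_conj s hP', ← mul_assoc, twist_mul_conj s hP, mul_assoc]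

theorem conj_zero_apply (s : Fin r → ℤ) {P : QSeries B} (hP : P 0 = 1) (F : QSeries B) :
    conj s P F 0 = F 0 := by
  unfold conj
  rw [mul_zero_apply, mul_zero_apply, inverse_zero_apply (by simpa using hP), hP, one_mul, mul_one]

theorem EqTo.conj {D : ℕ} {P P' : QSeries B} (s : Fin r → ℤ) (hP : P 0 = 1) (hP' : P' 0 = 1)
    (h : EqTo D P P') (F : QSeries B) : EqTo D (conj s P F) (conj s P' F) :=
  (((h.twist s).inverse (by simpa using hP) (by simpa using hP')).mul (EqTo.refl D F)).mul h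

/-- Products. -/
theorem conj_product (s s' : Fin r → ℤ) {P : QSeries B} (hP : P 0 = 1) (F F' : QSeries B) :
    conj (s + s') P (twist s' F * F') = twist s' (conj s P F) * conj s' P F' := by
  symm
  apply eq_conj hP
  rw [add_comm s s', ← twist_twist, ← mul_assoc, ← twist_mul, twist_mul_conj s hP, twist_mul,
    mul_assoc, twist_mul_conj s' hP, ← mul_assoc]

theorem isChartExpansion_iff {g : QSeries B} (h0 : g 0 = 1) (s : Fin r → ℤ) (γ : Fin r →₀ ℕ)
    (F R : QSeries B) :
    IsChartExpansion g s γ F R ↔ R = conj s (posPart g (chartAt B s γ)) F := by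
  constructor
  · rintro ⟨gp, h1, h2⟩
    rw [h1.eq_posPart h0] at h2
    exact eq_conj (posPart_zero g _) h2
  · rintro rfl
    exact ⟨_, posPart_spec h0 _, twist_mul_conj s (posPart_zero g _) F⟩

/-! ### the trace identity -/

/-- The form `ω(γ, ·)`. -/
def sig (B : Matrix (Fin r) (Fin r) ℤ) (γ : Fin r →₀ ℕ) : Fin r → ℤ := - chartAt B 0 γ

theorem wt_sig (hB : B.transpose = -B) (γ a : Fin r →₀ ℕ) :
    wt (sig B γ) a = omega B (toZ γ) (toZ a) := by
  rw [sig, wt_neg_left, wt_chartAt_zero, omega_swap hB (toZ γ)]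

theorem sig_add_chartAt (s : Fin r → ℤ) (γ : Fin r →₀ ℕ) : sig B γ + chartAt B s γ = s := by
  rw [chartAt_eq, sig]
  abel

/-- The coefficient of `x^γ` is a twisted trace. -/
theorem mul_apply_trace (hB : B.transpose = -B) (F h : QSeries B) (γ : Fin r →₀ ℕ) :
    (F * h) γ = (twist (sig B γ) h * F) γ := by
  rw [mul_apply, mul_apply]
  refine sum_bij' (fun p _ => p.swap) (fun p _ => p.swap)
    (fun p hp => by
      rw [HasAntidiagonal.mem_antidiagonal] at hp ⊢
      rw [← hp]
      exact add_comm _ _)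
    (fun p hp => by
      rw [HasAntidiagonal.mem_antidiagonal] at hp ⊢
      rw [← hp]
      exact add_comm _ _)
    (fun _ _ => rfl) (fun _ _ => rfl) ?_
  rintro ⟨b, a⟩ hp
  rw [HasAntidiagonal.mem_antidiagonal] at hp
  simp only at hp
  show v ^ omega B (toZ b) (toZ a) * F b * h a =
    v ^ omega B (toZ a) (toZ b) * twist (sig B γ) h a * F b
  rw [twist_apply, wt_sig hB]
  have h1 : omega B (toZ γ) (toZ a) = omega B (toZ b) (toZ a) := by
    rw [← hp, toZ_add, omega_add_left, omega_self hB, add_zero]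
  have h2 : omega B (toZ a) (toZ b) = - omega B (toZ b) (toZ a) := omega_swap hB _ _
  rw [h1, h2, two_mul, zpow_add₀ v_ne_zero, zpow_neg]
  have h3 : v ^ omega B (toZ b) (toZ a) ≠ 0 := zpow_ne_zero _ v_ne_zero
  field_simp

/-- Conjugation by a series supported on `{ω(·, p + γ) = 0}` does not change the coefficient of
`x^{p+γ}`. -/
theorem conj_apply_of_supp (hB : B.transpose = -B) (s : Fin r → ℤ) (γ : Fin r →₀ ℕ)
    {h : QSeries B} (h0 : h 0 = 1) (hh : ∀ e, h e ≠ 0 → wt (chartAt B s γ) e = 0)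
    (X : QSeries B) : conj s h X γ = X γ := by
  have h1 : twist (sig B γ) h = twist s h := by
    ext e
    rw [twist_apply, twist_apply]
    by_cases he : h e = 0
    · rw [he, mul_zero, mul_zero]
    · have h2 := hh e he
      have h3 := congrArg (fun Q => wt Q e) (sig_add_chartAt (B := B) s γ)
      simp only [wt_add_left] at h3
      rw [h2, add_zero] at h3
      rw [h3]
  unfold conj
  rw [mul_apply_trace hB, h1, ← mul_assoc, Ring.mul_inverse_cancel _ (twist_isUnit s h0), one_mul]

/-- Crossing a wall, first direction. -/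
theorem cross_one (hB : B.transpose = -B) (s : Fin r → ℤ) (γ : Fin r →₀ ℕ)
    {h : QSeries B} (h0 : h 0 = 1) (X : QSeries B) :
    X γ = (twist (sig B γ) (Ring.inverse h * twist (chartAt B s γ) h) * conj s h X) γ := by
  have h1 : X = twist s h * conj s h X * Ring.inverse h := by
    rw [twist_mul_conj s h0, mul_assoc, Ring.mul_inverse_cancel _ (isUnit_of_one h0), mul_one]
  conv_lhs => rw [h1]
  rw [mul_apply_trace hB, twist_mul, twist_twist, sig_add_chartAt, mul_assoc]

/-- Crossing a wall, second direction. -/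
theorem cross_two (hB : B.transpose = -B) (s : Fin r → ℤ) (γ : Fin r →₀ ℕ)
    {h : QSeries B} (h0 : h 0 = 1) (X : QSeries B) :
    conj s h X γ = (twist s (twist (-(chartAt B s γ)) h * Ring.inverse h) * X) γ := by
  have h1 : sig B γ = s + -(chartAt B s γ) := by
    rw [← sub_eq_add_neg, eq_sub_iff_add_eq]
    exact sig_add_chartAt s γ
  unfold conj
  rw [mul_apply_trace hB, h1, ← twist_twist, ← mul_assoc, twist_mul,
    twist_inverse s (by rw [h0]; exact one_ne_zero)]

/-! ### positivity classes -/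

theorem mul_mem_of_le {S : Subsemiring K} (hv : ∀ n : ℤ, v ^ n ∈ S) {f h : QSeries B}
    {γ : Fin r →₀ ℕ} (hf : ∀ e, e ≤ γ → f e ∈ S) (hh : ∀ e, e ≤ γ → h e ∈ S) : (f * h) γ ∈ S := by
  rw [mul_apply]
  refine sum_mem fun p hp => ?_
  rw [HasAntidiagonal.mem_antidiagonal] at hp
  exact S.mul_mem (S.mul_mem (hv _) (hf _ (by rw [← hp]; exact le_self_add)))
    (hh _ (by rw [← hp]; exact le_add_self))

theorem twist_mem {S : Subsemiring K} (hv : ∀ n : ℤ, v ^ n ∈ S) {f : QSeries B} (s : Fin r → ℤ)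
    {e : Fin r →₀ ℕ} (hf : f e ∈ S) : twist s f e ∈ S := by
  rw [twist_apply]
  exact S.mul_mem (hv _) hf

end

end Vale.Agent.P066.Theta.H235
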