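import Vale.Agent.P066.Theta.H235.Generic

/-!
# Strong positivity from wall positivity

`WallRatio S g`: at a generic point of every wall the wall function `g0` satisfies
`g0(v^{2c} x) / g0(x) ∈ S[[x]]`, `c > 0`, for a class `S` of positive elements.
Then all theta functions have expansions with coefficients in `S` in all charts, and the structure
constants lie in `S`.
-/

set_option autoImplicit false

open Finset

namespace Vale.Agent.P066.Theta.H235

noncomputable section

variable {r : ℕ} {B : Matrix (Fin r) (Fin r) ℤ}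

open QSeries

/-! ### triples -/

/-- Existence of the factorization according to the sign of `Q`. -/
theorem exists_isTriple {g : QSeries B} (h0 : g 0 = 1) (Q : Fin r → ℤ) :
    ∃ gp g0 gm, IsTriple g gp g0 gm Q := by
  obtain ⟨gp, m, h1, h2, h3, h4, h5⟩ := exists_factor (pos_le_disj Q) (pos_or_le Q) g h0
  obtain ⟨nm, n0, k1, k2, k3, k4, k5⟩ := exists_factor (P := leSub (-Q)) (L := posSub (-Q))
    (fun γ h h' => pos_le_disj (-Q) γ h' h) (fun γ => (pos_or_le (-Q) γ).symm) m h2
  have hnm : nm = m * Ring.inverse n0 := by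
    rw [k5, mul_assoc, Ring.mul_inverse_cancel _ (isUnit_of_one k2), mul_one]
  have hs : posSub (-Q) ≤ leSub Q := by
    intro γ hγ
    rw [mem_leSub]
    rcases mem_posSub.1 hγ with rfl | h
    · simp
    · rw [wt_neg_left] at h
      linarith
  have hn0 : n0 ∈ supp (B := B) (leSub Q) := fun γ hγ => hs (k4 γ hγ)
  have hnm' : nm ∈ supp (B := B) (leSub Q) := by
    rw [hnm]
    exact (supp (B := B) (leSub Q)).mul_mem h4
      (inverse_mem_supp hn0 (by rw [k2]; exact one_ne_zero))
  refine ⟨gp, nm, n0, ⟨h1, ?_, k1, ?_, k2, ?_, ?_⟩⟩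
  · intro γ hγ h
    exact (mem_posSub.1 (h3 γ h)).resolve_left hγ
  · intro γ h
    have e1 := mem_leSub.1 (hnm' γ h)
    have e2 := mem_leSub.1 (k3 γ h)
    rw [wt_neg_left] at e2
    omega
  · intro γ hγ h
    have e1 := (mem_posSub.1 (k4 γ h)).resolve_left hγ
    rw [wt_neg_left] at e1
    omega
  · rw [h5, k5, mul_assoc]

theorem isTriple_mem_gp {g gp g0 gm : QSeries B} {Q : Fin r → ℤ} (h : IsTriple g gp g0 gm Q) :
    gp ∈ supp (B := B) (posSub Q) := fun γ hγ => by
  by_cases h0 : γ = 0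
  · exact Or.inl h0
  · exact Or.inr (h.gp_supp γ h0 hγ)

theorem isTriple_mem_gm {g gp g0 gm : QSeries B} {Q : Fin r → ℤ} (h : IsTriple g gp g0 gm Q) :
    gm ∈ supp (B := B) (posSub (-Q)) := fun γ hγ => by
  by_cases h0 : γ = 0
  · exact Or.inl h0
  · right
    have := h.gm_supp γ h0 hγ
    rw [wt_neg_left]
    omega

theorem posSub_le_leSub_neg (Q : Fin r → ℤ) : posSub Q ≤ leSub (-Q) := by
  intro γ hγ
  rw [mem_leSub, wt_neg_left]
  rcases mem_posSub.1 hγ with rfl | h
  · simp
  · omega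

theorem isTriple_isPosPart {g gp g0 gm : QSeries B} {Q : Fin r → ℤ} (h : IsTriple g gp g0 gm Q) :
    IsPosPart g gp Q := by
  refine isPosPart_iff.2 ⟨h.gp_zero, isTriple_mem_gp h, g0 * gm, ?_, by rw [h.eq, mul_assoc]⟩
  refine (supp (B := B) (leSub Q)).mul_mem ?_ ?_
  · intro γ hγ
    rw [mem_leSub, h.g0_supp γ hγ]
  · intro γ hγ
    have := posSub_le_leSub_neg (-Q) (isTriple_mem_gm h γ hγ)
    rwa [neg_neg] at this

/-- The path ordered product to a point `Q'` on the near side of the wall. -/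
theorem posPart_near {g gp g0 gm : QSeries B} {Q Q' : Fin r → ℤ} {D : ℕ} (h0 : g 0 = 1)
    (h : IsTriple g gp g0 gm Q)
    (hQ : ∀ e : Fin r →₀ ℕ, deg e ≤ D → (0 < wt Q' e ↔ 0 < wt Q e)) :
    EqTo D (posPart g Q') gp := by
  intro e he
  rw [(isTriple_isPosPart h).eq_posPart h0]
  exact posPart_congr e fun δ hδ => hQ δ ((deg_mono hδ).trans he)

/-- The path ordered product to a point `Q'` on the far side of the wall. -/
theorem posPart_far {g gp g0 gm : QSeries B} {Q Q' : Fin r → ℤ} {D : ℕ} (h0 : g 0 = 1)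
    (h : IsTriple g gp g0 gm Q)
    (hQ : ∀ e : Fin r →₀ ℕ, e ≠ 0 → deg e ≤ D → (0 < wt Q' e ↔ 0 ≤ wt Q e)) :
    EqTo D (posPart g Q') (gp * g0) := by
  obtain ⟨h1, h2, m, h3, h4⟩ := isPosPart_iff.1 (posPart_spec h0 Q')
  intro e he
  refine (factor_congr (pos_le_disj Q') (P' := leSub (-Q)) (L' := posSub (-Q)) e ?_ ?_ h1
    (mul_apply_zero_one h.gp_zero h.g0_zero) (h4 ▸ h0) (gm' := gm) (by rw [← h.eq]; exact h0) h2 ?_
    h3 (isTriple_mem_gm h) ?_ e le_rfl).1
  · intro δ hδ
    rw [mem_leSub, mem_posSub, wt_neg_left]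
    by_cases hδ0 : δ = 0
    · subst hδ0
      simp
    · rw [hQ δ hδ0 ((deg_mono hδ).trans he)]
      simp [hδ0]
  · intro δ hδ
    rw [mem_leSub, mem_posSub, wt_neg_left]
    by_cases hδ0 : δ = 0
    · subst hδ0
      simp
    · rw [← not_lt, hQ δ hδ0 ((deg_mono hδ).trans he)]
      simp [hδ0]
  · refine (supp (B := B) (leSub (-Q))).mul_mem ?_ ?_
    · intro γ hγ
      exact posSub_le_leSub_neg Q (isTriple_mem_gp h γ hγ)
    · intro γ hγ
      rw [mem_leSub, wt_neg_left, h.g0_supp γ hγ]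
      simp
  · intro δ _
    rw [← h4, ← h.eq]

/-! ### the end of the path -/

/-- `{e | L(e) > 0, or L(e) = 0 and (e = 0 or Q(e) > 0)}`. -/
def lexPos (L Q : Fin r → ℤ) : AddSubmonoid (Fin r →₀ ℕ) where
  carrier := {e | 0 < wt L e ∨ (wt L e = 0 ∧ (e = 0 ∨ 0 < wt Q e))}
  zero_mem' := by simp
  add_mem' := by
    intro a b ha hb
    simp only [Set.mem_ofPred_eq] at ha hb ⊢
    rw [wt_add, wt_add]
    rcases ha with ha | ⟨ha, ha' | ha'⟩
    · left
      rcases hb with hb | ⟨hb, -⟩
      · omega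
      · omega
    · subst ha'
      simpa using hb
    · rcases hb with hb | ⟨hb, hb' | hb'⟩
      · left
        omega
      · subst hb'
        right
        simpa using ⟨ha, Or.inr ha'⟩
      · right
        exact ⟨by omega, Or.inr (by omega)⟩

/-- `{e | L(e) < 0, or L(e) = 0 and Q(e) ≤ 0}`. -/
def lexLe (L Q : Fin r → ℤ) : AddSubmonoid (Fin r →₀ ℕ) where
  carrier := {e | wt L e < 0 ∨ (wt L e = 0 ∧ wt Q e ≤ 0)}
  zero_mem' := by simp
  add_mem' := by
    intro a b ha hb
    simp only [Set.mem_ofPred_eq] at ha hb ⊢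
    rw [wt_add, wt_add]
    omega

theorem mem_lexPos {L Q : Fin r → ℤ} {e : Fin r →₀ ℕ} :
    e ∈ lexPos L Q ↔ 0 < wt L e ∨ (wt L e = 0 ∧ (e = 0 ∨ 0 < wt Q e)) := Iff.rfl

theorem mem_lexLe {L Q : Fin r → ℤ} {e : Fin r →₀ ℕ} :
    e ∈ lexLe L Q ↔ wt L e < 0 ∨ (wt L e = 0 ∧ wt Q e ≤ 0) := Iff.rfl

/-- If the signs of `Q` and `L` agree up to degree `D` (where `L ≠ 0`), the path ordered product to
`Q` is that to `L` times a series supported on `{L = 0}`. -/
theorem posPart_end {g : QSeries B} (h0 : g 0 = 1) {L Q : Fin r → ℤ} {D : ℕ}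
    (hc : ∀ e : Fin r →₀ ℕ, deg e ≤ D → (0 < wt L e → 0 < wt Q e) ∧ (wt L e < 0 → wt Q e < 0)) :
    ∃ h : QSeries B, h 0 = 1 ∧ (∀ e, h e ≠ 0 → wt L e = 0) ∧
      EqTo D (posPart g Q) (posPart g L * h) := by
  obtain ⟨A, C, a1, c1, a2, c2, hAC⟩ := exists_factor (P := lexPos L Q) (L := lexLe L Q) (by
      intro γ h h'
      rw [mem_lexPos] at h
      rw [mem_lexLe] at h'
      by_contra hγ
      simp only [hγ, false_or] at h
      omega) (by
      intro γ
      rw [mem_lexPos, mem_lexLe]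
      by_cases hγ : γ = 0
      · subst hγ
        simp
      · simp only [hγ, false_or]
        omega) g h0
  have hlexLe : lexLe L Q ≤ leSub L := by
    intro γ h
    rw [mem_lexLe] at h
    rw [mem_leSub]
    omega
  have hlexPos : lexPos L Q ≤ leSub (-L) := by
    intro γ h
    rw [mem_lexPos] at h
    rw [mem_leSub, wt_neg_left]
    omega
  obtain ⟨b1, b2, m, b3, b4⟩ := isPosPart_iff.1 (posPart_spec a1 L)
  have hm0 : m 0 = 1 := by
    have := congrFun b4 0
    rw [mul_zero_apply, a1, b1, one_mul] at this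
    exact this.symm
  have hm : m = Ring.inverse (posPart A L) * A := by
    have := congrArg (fun X => Ring.inverse (posPart A L) * X) b4
    rw [← mul_assoc, Ring.inverse_mul_cancel _ (isUnit_posPart A L), one_mul] at this
    exact this.symm
  have hm' : m ∈ supp (B := B) (leSub (-L)) := by
    rw [hm]
    refine (supp (B := B) (leSub (-L))).mul_mem ?_ fun γ hγ => hlexPos (a2 γ hγ)
    refine inverse_mem_supp (fun γ hγ => posSub_le_leSub_neg L (b2 γ hγ)) ?_
    rw [b1]
    exact one_ne_zero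
  have hpos : posPart A L = posPart g L := by
    refine IsPosPart.eq_posPart h0 (isPosPart_iff.2 ⟨b1, b2, m * C, ?_, ?_⟩)
    · exact (supp (B := B) (leSub L)).mul_mem b3 fun γ hγ => hlexLe (c2 γ hγ)
    · rw [← mul_assoc, ← b4]
      exact hAC
  refine ⟨m, hm0, ?_, ?_⟩
  · intro e he
    have e1 := mem_leSub.1 (b3 e he)
    have e2 := mem_leSub.1 (hm' e he)
    rw [wt_neg_left] at e2
    omega
  · rw [← hpos, ← b4]
    obtain ⟨h1, h2, m', h3, h4⟩ := isPosPart_iff.1 (posPart_spec h0 Q)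
    intro e he
    refine (factor_congr (pos_le_disj Q) (P' := lexPos L Q) (L' := lexLe L Q) e ?_ ?_ h1
      a1 (h4 ▸ h0) (gm' := C) (by rw [← hAC]; exact h0) h2 a2 h3 c2 ?_ e le_rfl).1
    · intro δ hδ
      rw [mem_lexPos, mem_posSub]
      by_cases hδ0 : δ = 0
      · subst hδ0
        simp
      · have := hc δ ((deg_mono hδ).trans he)
        simp only [hδ0, false_or]
        omega
    · intro δ hδ
      rw [mem_lexLe, mem_leSub]
      have := hc δ ((deg_mono hδ).trans he)
      omega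
    · intro δ _
      rw [← h4, ← hAC]

/-! ### the main induction -/

/-- Wall positivity: the ratio `g0(v^{2c} x) / g0(x)`, `c > 0`, of the wall function at a generic
point of the wall has coefficients in `S`. -/
def WallRatio (S : Subsemiring K) (g : QSeries B) : Prop :=
  ∀ (D : ℕ) (Q : Fin r → ℤ) (b : Fin r →₀ ℕ), b ≠ 0 → IsWallAt Q D b →
    ∀ gp g0 gm, IsTriple g gp g0 gm Q →
      ∀ s : Fin r → ℤ, 0 < wt s b → ∀ R : QSeries B, R * g0 = twist s g0 →
        ∀ e, deg e ≤ D → R e ∈ S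

theorem isWallAt_multiple {Q : Fin r → ℤ} {D : ℕ} {b : Fin r →₀ ℕ} (h : IsWallAt Q D b)
    {e : Fin r →₀ ℕ} (he : deg e ≤ D) (hQ : wt Q e = 0) : ∃ n : ℕ, e = n • b := by
  by_cases h0 : e = 0
  · exact ⟨0, by simp [h0]⟩
  · exact h.2 e h0 he hQ

theorem toZ_nsmul (n : ℕ) (b : Fin r →₀ ℕ) : toZ (n • b) = (n : ℤ) • toZ b := by
  funext i
  simp [toZ]

theorem omega_nsmul_nsmul (hB : B.transpose = -B) (m n : ℕ) (b : Fin r →₀ ℕ) :
    omega B (toZ (m • b)) (toZ (n • b)) = 0 := by
  have h : omega B (toZ (m • b)) (toZ (n • b)) = (m : ℤ) * n * omega B (toZ b) (toZ b) := by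
    simp only [omega, toZ_nsmul, Pi.smul_apply, smul_eq_mul, mul_sum]
    exact sum_congr rfl fun i _ => sum_congr rfl fun j _ => by ring
  rw [h, omega_self hB, mul_zero]

/-- `{e | Q(e) = 0}`. -/
def zeroSub (Q : Fin r → ℤ) : AddSubmonoid (Fin r →₀ ℕ) where
  carrier := {e | wt Q e = 0}
  zero_mem' := by simp
  add_mem' := by
    intro a b ha hb
    simp only [Set.mem_ofPred_eq] at ha hb ⊢
    rw [wt_add, ha, hb, add_zero]

/-- Series which live, up to degree `D`, on the multiples of one exponent commute there. -/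
theorem mul_comm_of_wall (hB : B.transpose = -B) {D : ℕ} {b : Fin r →₀ ℕ} {f h : QSeries B}
    (hf : ∀ e, deg e ≤ D → f e ≠ 0 → ∃ n : ℕ, e = n • b)
    (hh : ∀ e, deg e ≤ D → h e ≠ 0 → ∃ n : ℕ, e = n • b) : EqTo D (f * h) (h * f) := by
  intro e he
  rw [mul_apply, mul_apply]
  refine sum_bij' (fun p _ => p.swap) (fun p _ => p.swap)
    (fun p hp => by
      rw [HasAntidiagonal.mem_antidiagonal] at hp ⊢
      rw [← hp]
      exact add_comm _ _)
    (fun p hp => by
      rw [HasAntidiagonal.mem_antidiagonal] at hp ⊢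
      rw [← hp]
      exact add_comm _ _)
    (fun _ _ => rfl) (fun _ _ => rfl) ?_
  rintro ⟨a, c⟩ hp
  have hd := deg_le_of_antidiagonal he hp
  show v ^ omega B (toZ a) (toZ c) * f a * h c = v ^ omega B (toZ c) (toZ a) * h c * f a
  by_cases h1 : f a = 0
  · rw [h1]
    ring
  by_cases h2 : h c = 0
  · rw [h2]
    ring
  obtain ⟨m, rfl⟩ := hf a hd.1 h1
  obtain ⟨n, rfl⟩ := hh c hd.2 h2
  rw [omega_nsmul_nsmul hB, omega_nsmul_nsmul hB]
  ring

/-- Crossing one wall. -/
theorem cross_mem (hB : B.transpose = -B) {S : Subsemiring K} (hv : ∀ n : ℤ, v ^ n ∈ S)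
    {g : QSeries B} (h0 : g 0 = 1) (hW : WallRatio S g) (s : Fin r → ℤ) (F : QSeries B)
    (γ : Fin r →₀ ℕ) {Q₀ Q Q' : Fin r → ℤ} {b : Fin r →₀ ℕ} (hb : b ≠ 0)
    (hwall : IsWallAt Q₀ (deg γ) b)
    (hcase : (0 < wt (chartAt B s γ) b ∧
        (∀ e : Fin r →₀ ℕ, deg e ≤ deg γ → (0 < wt Q e ↔ 0 < wt Q₀ e)) ∧
        (∀ e : Fin r →₀ ℕ, e ≠ 0 → deg e ≤ deg γ → (0 < wt Q' e ↔ 0 ≤ wt Q₀ e))) ∨
      (wt (chartAt B s γ) b < 0 ∧
        (∀ e : Fin r →₀ ℕ, e ≠ 0 → deg e ≤ deg γ → (0 < wt Q e ↔ 0 ≤ wt Q₀ e)) ∧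
        (∀ e : Fin r →₀ ℕ, deg e ≤ deg γ → (0 < wt Q' e ↔ 0 < wt Q₀ e))))
    (hpos : ∀ e, e ≤ γ → conj s (posPart g Q') F e ∈ S) :
    conj s (posPart g Q) F γ ∈ S := by
  obtain ⟨gp, g0, gm, ht⟩ := exists_isTriple h0 Q₀
  have hu : IsUnit g0 := isUnit_of_one ht.g0_zero
  have hg0 : g0 0 ≠ 0 := by rw [ht.g0_zero]; exact one_ne_zero
  have hle : ∀ e, e ≤ γ → deg e ≤ deg γ := fun e he => deg_mono he
  -- supports
  have hs0 : g0 ∈ supp (B := B) (zeroSub Q₀) := ht.g0_supp
  have hsi : Ring.inverse g0 ∈ supp (B := B) (zeroSub Q₀) := inverse_mem_supp hs0 hg0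
  have hmul : ∀ f : QSeries B, f ∈ supp (B := B) (zeroSub Q₀) →
      ∀ e, deg e ≤ deg γ → f e ≠ 0 → ∃ n : ℕ, e = n • b :=
    fun f hf e he hfe => isWallAt_multiple hwall he (hf e hfe)
  have hratio : ∀ t : Fin r → ℤ, 0 < wt t b → ∀ e, e ≤ γ →
      (twist t g0 * Ring.inverse g0) e ∈ S := by
    intro t ht' e he
    refine hW (deg γ) Q₀ b hb hwall gp g0 gm ht t ht' _ ?_ e (hle e he)
    rw [mul_assoc, Ring.inverse_mul_cancel _ hu, mul_one]
  rcases hcase with ⟨hL, hQ, hQ'⟩ | ⟨hL, hQ, hQ'⟩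
  · -- near side first
    have e1 := posPart_near h0 ht hQ
    have e2 := posPart_far h0 ht hQ'
    have c1 := e1.conj s (posPart_zero g Q) ht.gp_zero F
    have c2 := e2.conj s (posPart_zero g Q') (mul_apply_zero_one ht.gp_zero ht.g0_zero) F
    rw [c1 γ le_rfl, cross_one hB s γ ht.g0_zero (conj s gp F),
      ← conj_mul s ht.gp_zero ht.g0_zero]
    refine mul_mem_of_le hv (fun e he => twist_mem hv _ ?_) fun e he => ?_
    · rw [mul_comm_of_wall hB (b := b) (hmul _ hsi) (hmul _ (twist_mem_supp _ hs0)) e (hle e he)]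
      exact hratio _ hL e he
    · rw [← c2 e (hle e he)]
      exact hpos e he
  · -- far side first
    have e1 := posPart_far h0 ht hQ
    have e2 := posPart_near h0 ht hQ'
    have c1 := e1.conj s (posPart_zero g Q) (mul_apply_zero_one ht.gp_zero ht.g0_zero) F
    have c2 := e2.conj s (posPart_zero g Q') ht.gp_zero F
    rw [c1 γ le_rfl, conj_mul s ht.gp_zero ht.g0_zero, cross_two hB s γ ht.g0_zero]
    refine mul_mem_of_le hv (fun e he => twist_mem hv _ ?_) fun e he => ?_
    · exact hratio _ (by rw [wt_neg_left]; linarith) e he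
    · rw [← c2 e (hle e he)]
      exact hpos e he

/-- Theta functions have coefficients in `S` in all charts. -/
theorem conj_theta_mem (hB : B.transpose = -B) {S : Subsemiring K} (hv : ∀ n : ℤ, v ^ n ∈ S)
    {g : QSeries B} (h0 : g 0 = 1) (hW : WallRatio S g) {s : Fin r → ℤ} {F : QSeries B}
    (hF : IsTheta g s F) : ∀ (γ : Fin r →₀ ℕ) (Q : Fin r → ℤ), conj s (posPart g Q) F γ ∈ S := by
  intro γ
  induction γ using WellFoundedLT.induction with
  | ind γ ih =>
    by_cases hγ : γ = 0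
    · intro Q
      subst hγ
      rw [conj_zero_apply s (posPart_zero g Q), hF.zero]
      exact S.one_mem
    -- generic points
    have key : ∀ (n : ℕ) (Q : Fin r → ℤ), Gen (chartAt B s γ) Q (deg γ) →
        (crossings (chartAt B s γ) Q (deg γ)).card = n → conj s (posPart g Q) F γ ∈ S := by
      intro n
      induction n using Nat.strong_induction_on with
      | h n ihn =>
        intro Q hG hn
        by_cases hne : (crossings (chartAt B s γ) Q (deg γ)).Nonempty
        · obtain ⟨Q₀, Q', b, hb, hwall, hG', hcard, hcase⟩ := exists_step hG hne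
          refine cross_mem hB hv h0 hW s F γ hb hwall hcase fun e he => ?_
          rcases he.lt_or_eq with h | h
          · exact ih e h Q'
          · subst h
            exact ihn _ (by omega) Q' hG' rfl
        · obtain ⟨h, h1, h2, h3⟩ := posPart_end (g := g) h0 (L := chartAt B s γ) (Q := Q)
            (D := deg γ) (by
              intro e he
              by_cases he0 : e = 0
              · subst he0
                simp
              have h1 := hG.ne_zero e he0 he
              have h2 : ¬ (wt Q e * wt (chartAt B s γ) e < 0) := fun h =>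
                hne ⟨e, mem_crossings.2 ⟨he, h⟩⟩
              constructor
              · intro h3
                by_contra hc
                have h4 : wt Q e < 0 := by omega
                exact h2 (mul_neg_of_neg_of_pos h4 h3)
              · intro h3
                by_contra hc
                have h4 : 0 < wt Q e := by omega
                exact h2 (mul_neg_of_pos_of_neg h4 h3))
          have c := h3.conj s (posPart_zero g Q)
            (mul_apply_zero_one (posPart_zero g (chartAt B s γ)) h1) F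
          rw [c γ le_rfl, conj_mul s (posPart_zero g _) h1, conj_apply_of_supp hB s γ h1 h2,
            hF.vanish γ hγ _ ((isChartExpansion_iff h0 s γ F _).2 rfl)]
          exact S.zero_mem
    intro Q
    obtain ⟨Q', hG, hQ'⟩ := exists_gen (chartAt B s γ) Q (deg γ)
    have e1 : EqTo (deg γ) (posPart g Q) (posPart g Q') := by
      intro e he
      exact posPart_congr e fun δ hδ => (hQ' δ ((deg_mono hδ).trans he)).symm
    rw [e1.conj s (posPart_zero g Q) (posPart_zero g Q') F γ le_rfl]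
    exact key _ Q' hG rfl

/-- **Strong positivity from wall positivity**, for an arbitrary class of positive elements. -/
theorem strongPositivity_of_wallRatio (hB : B.transpose = -B) {S : Subsemiring K}
    (hv : ∀ n : ℤ, v ^ n ∈ S) {g : QSeries B} (h0 : g 0 = 1) (hW : WallRatio S g)
    (s s' : Fin r → ℤ) (F F' : QSeries B) (hF : IsTheta g s F) (hF' : IsTheta g s' F')
    (γ : Fin r →₀ ℕ) (R : QSeries B)
    (hR : IsChartExpansion g (s + s') γ (twist s' F * F') R) : R γ ∈ S := by
  rw [(isChartExpansion_iff h0 _ _ _ _).1 hR, conj_product s s' (posPart_zero g _)]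
  exact mul_mem_of_le hv (fun e _ => twist_mem hv _ (conj_theta_mem hB hv h0 hW hF e _))
    fun e _ => conj_theta_mem hB hv h0 hW hF' e _

end

end Vale.Agent.P066.Theta.H235
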